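import Vale.Agent.P012.MathlibUsed

namespace Vale.Agent.P012

/-- The finite set `s` of integers `≥ 2` is an Egyptian fraction expansion of `a/b`:
the reciprocals of its elements sum to `a/b`. -/
def IsExpansion (a b : ℕ) (s : Finset ℕ) : Prop :=
  (∀ n ∈ s, 2 ≤ n) ∧ ∑ n ∈ s, (1 : ℚ) / n = (a : ℚ) / b

/-- `N(a,b)`: the least `k ≥ 1` such that `a/b` is a sum of `k` distinct unit fractions
with denominators `≥ 2`. -/
noncomputable def numTerms (a b : ℕ) : ℕ :=
  sInf {k : ℕ | 1 ≤ k ∧ ∃ s : Finset ℕ, s.card = k ∧ IsExpansion a b s}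

/-- `N(b)`: the maximum of `N(a,b)` over `1 ≤ a < b`. -/
noncomputable def maxTerms (b : ℕ) : ℕ :=
  (Finset.Ico 1 b).sup (fun a => numTerms a b)

end Vale.Agent.P012
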